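import Mathlib

/-!
# P036: additive energy forces a popular difference inside a cell

`P` a finite subset of an abelian group, `c` a map to cells such that for every `w` and every cell
`i` the points `p - w` (`c p = i`) lie in at most 4 cells.  If `M` is the number of the cells that
meet `P` and every nonzero difference `v = q - p` of two points in the same cell has at most `R`
representations, then `E(P) ≤ 4 n² (M + R)`.
-/

set_option autoImplicit false

open Finset
open scoped Pointwise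

namespace P036E

variable {α ι : Type*} [AddCommGroup α] [DecidableEq α] [DecidableEq ι]

/-- the points `p` of `P` with `p - w ∈ P` -/
def F (P : Finset α) (w : α) : Finset α := P.filter fun p => p - w ∈ P

/-- the points of `P` in the cell `i` -/
def nn (P : Finset α) (c : α → ι) (i : ι) : ℕ := (P.filter fun p => c p = i).card

/-- the number of representations of `v` -/
def rr (P : Finset α) (v : α) : ℕ := (P.filter fun x => x + v ∈ P).card

theorem energy_le_sum (P : Finset α) :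
    P.addEnergy P ≤ ∑ w ∈ P - P, (F P w).card ^ 2 := by
  have h1 : ∑ w ∈ P - P, (F P w).card ^ 2 =
      ((P - P).sigma fun w => F P w ×ˢ F P w).card := by
    rw [card_sigma]
    refine sum_congr rfl fun w _ => ?_
    rw [card_product, sq]
  rw [h1]
  unfold Finset.addEnergy
  refine card_le_card_of_injOn
    (fun x => (⟨x.1.1 - x.1.2, (x.1.1, x.2.2)⟩ : Σ _ : α, α × α)) ?_ ?_
  · intro x hx
    have hx' := mem_coe.1 hx
    rw [mem_filter, mem_product, mem_product, mem_product] at hx'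
    obtain ⟨⟨⟨h2, h3⟩, ⟨h4, h5⟩⟩, h6⟩ := hx'
    refine mem_coe.2 (mem_sigma.2 ⟨sub_mem_sub h2 h3, mem_product.2 ⟨?_, ?_⟩⟩)
    · refine mem_filter.2 ⟨h2, ?_⟩
      have : x.1.1 - (x.1.1 - x.1.2) = x.1.2 := by abel
      rw [this]
      exact h3
    · refine mem_filter.2 ⟨h5, ?_⟩
      have : x.2.2 - (x.1.1 - x.1.2) = x.2.1 := by
        have h7 : x.2.1 = x.1.2 + x.2.2 - x.1.1 := by rw [← h6]; abel
        rw [h7]
        abel
      rw [this]
      exact h4
  · intro x hx y hy hxy
    have hx' := (mem_filter.1 (mem_coe.1 hx)).2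
    have hy' := (mem_filter.1 (mem_coe.1 hy)).2
    have h2 : x.1.1 - x.1.2 = y.1.1 - y.1.2 := congrArg Sigma.fst hxy
    have h3 : (x.1.1, x.2.2) = (y.1.1, y.2.2) := by
      have := congrArg (fun z : Σ _ : α, α × α => z.2) hxy
      exact this
    have h4 : x.1.1 = y.1.1 := (Prod.mk.inj h3).1
    have h5 : x.2.2 = y.2.2 := (Prod.mk.inj h3).2
    have h6 : x.1.2 = y.1.2 := by
      rw [h4] at h2
      exact sub_right_injective h2
    have h7 : x.2.1 = y.2.1 := by
      have e1 : x.2.1 = x.1.2 + x.2.2 - x.1.1 := by rw [← hx']; abel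
      have e2 : y.2.1 = y.1.2 + y.2.2 - y.1.1 := by rw [← hy']; abel
      rw [e1, e2, h4, h5, h6]
    exact Prod.ext (Prod.ext h4 h6) (Prod.ext h7 h5)

theorem nn_pos {P : Finset α} {c : α → ι} {p : α} (hp : p ∈ P) : (0 : ℝ) < nn P c (c p) := by
  have : 0 < nn P c (c p) := card_pos.2 ⟨p, mem_filter.2 ⟨hp, rfl⟩⟩
  exact_mod_cast this

theorem sum_nn (P : Finset α) (c : α → ι) : ∑ i ∈ P.image c, (nn P c i : ℝ) = P.card := by
  rw [card_eq_sum_card_image c P]
  push_cast
  rfl

theorem weights_le (P : Finset α) (c : α → ι) (w : α)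
    (h4 : ∀ i : ι, ((P.filter fun p => c p = i ∧ p - w ∈ P).image fun p => c (p - w)).card ≤ 4) :
    ∑ j ∈ (F P w).image (fun p => (c p, c (p - w))), (nn P c j.1 : ℝ) ≤ 4 * P.card := by
  set J := (F P w).image (fun p => (c p, c (p - w))) with hJ
  have h1 : ∑ j ∈ J, (nn P c j.1 : ℝ) =
      ∑ i ∈ J.image Prod.fst, ((J.filter fun j => j.1 = i).card : ℝ) * (nn P c i : ℝ) := by
    rw [sum_comp (fun i => (nn P c i : ℝ)) (Prod.fst : ι × ι → ι)]
    refine sum_congr rfl fun i _ => ?_
    rw [nsmul_eq_mul]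
  rw [h1, ← sum_nn P c, mul_sum]
  have h2 : J.image Prod.fst ⊆ P.image c := by
    intro i hi
    obtain ⟨j, hj, rfl⟩ := mem_image.1 hi
    obtain ⟨p, hp, rfl⟩ := mem_image.1 hj
    exact mem_image.2 ⟨p, (mem_filter.1 hp).1, rfl⟩
  refine (sum_le_sum_of_subset_of_nonneg h2 fun i _ _ => by positivity).trans ?_
  refine sum_le_sum fun i _ => mul_le_mul_of_nonneg_right ?_ (Nat.cast_nonneg _)
  have h3 : (J.filter fun j => j.1 = i).card ≤
      ((P.filter fun p => c p = i ∧ p - w ∈ P).image fun p => c (p - w)).card := by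
    refine card_le_card_of_injOn Prod.snd ?_ ?_
    · intro j hj
      obtain ⟨hj1, hj2⟩ := mem_filter.1 (mem_coe.1 hj)
      obtain ⟨p, hp, rfl⟩ := mem_image.1 hj1
      obtain ⟨hp1, hp2⟩ := mem_filter.1 hp
      exact mem_coe.2 (mem_image.2 ⟨p, mem_filter.2 ⟨hp1, hj2, hp2⟩, rfl⟩)
    · intro j hj j' hj' h
      have e1 := (mem_filter.1 (mem_coe.1 hj)).2
      have e2 := (mem_filter.1 (mem_coe.1 hj')).2
      exact Prod.ext (e1.trans e2.symm) h
  exact_mod_cast h3.trans (h4 i)

/-- the weighted count at `w` -/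
noncomputable def ww (P : Finset α) (c : α → ι) (w p : α) : ℝ :=
  if p - w ∈ P then ((P.filter fun q => c q = c p ∧ q - w ∈ P).card : ℝ) / nn P c (c p) else 0

theorem ww_nonneg (P : Finset α) (c : α → ι) (w p : α) : 0 ≤ ww P c w p := by
  unfold ww
  split_ifs
  · positivity
  · exact le_rfl

theorem sq_F_le (P : Finset α) (c : α → ι) (w : α)
    (h4 : ∀ i : ι, ((P.filter fun p => c p = i ∧ p - w ∈ P).image fun p => c (p - w)).card ≤ 4) :
    ((F P w).card : ℝ) ^ 2 ≤ 4 * P.card * ∑ p ∈ P, ww P c w p := by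
  set φ : α → ι × ι := fun p => (c p, c (p - w)) with hφ
  set J := (F P w).image φ with hJ
  have hg : ∀ j ∈ J, (0 : ℝ) < nn P c j.1 := by
    intro j hj
    obtain ⟨p, hp, rfl⟩ := mem_image.1 hj
    exact nn_pos (mem_filter.1 hp).1
  have h1 := sq_sum_div_le_sum_sq_div J (fun j => (((F P w).filter fun p => φ p = j).card : ℝ)) hg
  have h2 : ∑ j ∈ J, (((F P w).filter fun p => φ p = j).card : ℝ) = ((F P w).card : ℝ) := by
    rw [card_eq_sum_card_image φ (F P w)]
    push_cast
    rfl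
  rw [h2] at h1
  have h3 : ∑ j ∈ J, (((F P w).filter fun p => φ p = j).card : ℝ) ^ 2 / (nn P c j.1 : ℝ) =
      ∑ p ∈ F P w, (((F P w).filter fun q => φ q = φ p).card : ℝ) / (nn P c (c p) : ℝ) := by
    rw [sum_comp (fun j => (((F P w).filter fun q => φ q = j).card : ℝ) / (nn P c j.1 : ℝ)) φ]
    refine sum_congr rfl fun j _ => ?_
    rw [nsmul_eq_mul]
    ring
  rw [h3] at h1
  have h5 := weights_le P c w h4
  have h6 : ∑ p ∈ F P w, (((F P w).filter fun q => φ q = φ p).card : ℝ) / (nn P c (c p) : ℝ) ≤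
      ∑ p ∈ P, ww P c w p := by
    unfold ww
    rw [← sum_filter]
    refine sum_le_sum fun p _ => div_le_div_of_nonneg_right ?_ (Nat.cast_nonneg _)
    have : ((F P w).filter fun q => φ q = φ p) ⊆ P.filter fun q => c q = c p ∧ q - w ∈ P := by
      intro q hq
      obtain ⟨hq1, hq2⟩ := mem_filter.1 hq
      obtain ⟨hq3, hq4⟩ := mem_filter.1 hq1
      exact mem_filter.2 ⟨hq3, congrArg Prod.fst hq2, hq4⟩
    exact_mod_cast card_le_card this
  have h7 := h1.trans h6
  rcases J.eq_empty_or_nonempty with hJe | hJe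
  · have h8 : (F P w).card = 0 := by
      rw [card_eq_zero]
      exact image_eq_empty.1 (hJ.symm.trans hJe)
    have h9 : (0 : ℝ) ≤ ∑ p ∈ P, ww P c w p := sum_nonneg fun p _ => ww_nonneg P c w p
    have h10 : ((F P w).card : ℝ) ^ 2 = 0 := by rw [h8]; norm_num
    rw [h10]
    exact mul_nonneg (by positivity) h9
  · have h8 : (0 : ℝ) < ∑ j ∈ J, (nn P c j.1 : ℝ) := sum_pos hg hJe
    rw [div_le_iff₀ h8] at h7
    refine h7.trans ?_
    rw [mul_comm]
    exact mul_le_mul_of_nonneg_right h5 (sum_nonneg fun p _ => ww_nonneg P c w p)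

theorem inner_le (P : Finset α) (c : α → ι) {R : ℝ} (hR0 : 0 ≤ R)
    (hR : ∀ p ∈ P, ∀ q ∈ P, c p = c q → p ≠ q → (rr P (q - p) : ℝ) ≤ R) {p : α} (hp : p ∈ P) :
    ∑ w ∈ P - P, ww P c w p ≤ P.card / nn P c (c p) + R := by
  have hn := nn_pos (c := c) hp
  have h1 : ∀ w ∈ P - P, ww P c w p =
      (∑ q ∈ P.filter (fun q => c q = c p), if (p - w ∈ P ∧ q - w ∈ P) then (1 : ℝ) else 0) /
        nn P c (c p) := by
    intro w _
    unfold ww
    split_ifs with h
    · congr 1
      rw [← filter_filter, card_filter]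
      push_cast
      refine sum_congr rfl fun q _ => ?_
      simp only [h, true_and]
    · simp only [h, false_and, if_false, sum_const_zero, zero_div]
  rw [sum_congr rfl h1, ← sum_div, sum_comm]
  have h2 : ∀ q ∈ P.filter (fun q => c q = c p),
      ∑ w ∈ P - P, (if (p - w ∈ P ∧ q - w ∈ P) then (1 : ℝ) else 0) ≤
        (if q = p then (P.card : ℝ) else 0) + R := by
    intro q hq
    obtain ⟨hq1, hq2⟩ := mem_filter.1 hq
    have h3 : ∑ w ∈ P - P, (if (p - w ∈ P ∧ q - w ∈ P) then (1 : ℝ) else 0) ≤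
        (rr P (q - p) : ℝ) := by
      rw [← Nat.cast_one, ← Nat.cast_zero]
      have h4 : ((P - P).filter fun w => p - w ∈ P ∧ q - w ∈ P).card ≤ rr P (q - p) := by
        refine card_le_card_of_injOn (fun w => p - w) ?_ ?_
        · intro w hw
          obtain ⟨hw1, hw2, hw3⟩ := mem_filter.1 (mem_coe.1 hw)
          refine mem_coe.2 (mem_filter.2 ⟨hw2, ?_⟩)
          have : p - w + (q - p) = q - w := by abel
          rw [this]
          exact hw3
        · intro w _ w' _ h
          exact sub_right_injective h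
      have h5 : ∑ w ∈ P - P, (if (p - w ∈ P ∧ q - w ∈ P) then ((1 : ℕ) : ℝ) else ((0 : ℕ) : ℝ)) =
          (((P - P).filter fun w => p - w ∈ P ∧ q - w ∈ P).card : ℝ) := by
        rw [card_filter]
        push_cast
        rfl
      rw [h5]
      exact_mod_cast h4
    refine h3.trans ?_
    by_cases hqp : q = p
    · rw [if_pos hqp]
      have : (rr P (q - p) : ℝ) ≤ P.card := by
        exact_mod_cast card_le_card (filter_subset _ _)
      linarith
    · rw [if_neg hqp, zero_add]
      exact hR p hp q hq1 hq2.symm (fun h => hqp h.symm)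
  have h6 := sum_le_sum h2
  rw [sum_add_distrib, sum_const, nsmul_eq_mul] at h6
  have h7 : ∑ q ∈ P.filter (fun q => c q = c p), (if q = p then (P.card : ℝ) else 0) = P.card := by
    rw [sum_ite_eq_of_mem']
    exact mem_filter.2 ⟨hp, rfl⟩
  rw [h7] at h6
  rw [div_le_iff₀ hn, add_mul, div_mul_cancel₀ _ hn.ne', mul_comm R]
  exact h6

/-- **Energy bound.** -/
theorem energy_le (P : Finset α) (c : α → ι)
    (h4 : ∀ (w : α) (i : ι),
      ((P.filter fun p => c p = i ∧ p - w ∈ P).image fun p => c (p - w)).card ≤ 4)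
    {R : ℝ} (hR0 : 0 ≤ R)
    (hR : ∀ p ∈ P, ∀ q ∈ P, c p = c q → p ≠ q → (rr P (q - p) : ℝ) ≤ R) :
    (P.addEnergy P : ℝ) ≤ 4 * (P.card : ℝ) ^ 2 * ((P.image c).card + R) := by
  have h1 : (P.addEnergy P : ℝ) ≤ ∑ w ∈ P - P, ((F P w).card : ℝ) ^ 2 := by
    exact_mod_cast energy_le_sum P
  have h2 : ∑ w ∈ P - P, ((F P w).card : ℝ) ^ 2 ≤
      4 * P.card * ∑ p ∈ P, ∑ w ∈ P - P, ww P c w p := by
    rw [sum_comm, mul_sum]
    exact sum_le_sum fun w _ => sq_F_le P c w (h4 w)
  have h3 : ∑ p ∈ P, ∑ w ∈ P - P, ww P c w p ≤ ∑ p ∈ P, ((P.card : ℝ) / nn P c (c p) + R) :=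
    sum_le_sum fun p hp => inner_le P c hR0 hR hp
  have h5 : ∑ p ∈ P, ((P.card : ℝ) / nn P c (c p) + R) = P.card * ((P.image c).card + R) := by
    rw [sum_add_distrib, sum_const, nsmul_eq_mul, mul_add]
    congr 1
    rw [sum_comp (fun i => (P.card : ℝ) / nn P c i) c]
    have h6 : ∀ i ∈ P.image c, (P.filter fun p => c p = i).card • ((P.card : ℝ) / nn P c i) =
        P.card := by
      intro i hi
      obtain ⟨p, hp, rfl⟩ := mem_image.1 hi
      have := nn_pos (c := c) hp
      rw [nsmul_eq_mul]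
      change (nn P c (c p) : ℝ) * _ = _
      rw [mul_div_cancel₀ _ this.ne']
    rw [sum_congr rfl h6, sum_const, nsmul_eq_mul, mul_comm]
  calc (P.addEnergy P : ℝ) ≤ 4 * P.card * ∑ p ∈ P, ∑ w ∈ P - P, ww P c w p := h1.trans h2
    _ ≤ 4 * P.card * (P.card * ((P.image c).card + R)) :=
        mul_le_mul_of_nonneg_left (h3.trans h5.le) (by positivity)
    _ = 4 * (P.card : ℝ) ^ 2 * ((P.image c).card + R) := by ring

end P036E
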