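import Vale.Agent.Lib.P036.Energy

/-!
# P036: small triangles from additive energy
-/

set_option autoImplicit false

open Finset
open scoped Pointwise

namespace P036E

/-- area of the triangle `pqr` -/
noncomputable def area (p q r : ℝ × ℝ) : ℝ :=
  |(q.1 - p.1) * (r.2 - p.2) - (q.2 - p.2) * (r.1 - p.1)| / 2

noncomputable def cell (G : ℕ) (p : ℝ × ℝ) : ℤ × ℤ := (⌊(G : ℝ) * p.1⌋, ⌊(G : ℝ) * p.2⌋)

theorem floor_sub_mem {x t : ℝ} {a : ℤ} (h : ⌊x⌋ = a) :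
    ⌊x - t⌋ ∈ Finset.Icc (a + ⌊-t⌋) (a + ⌊-t⌋ + 1) := by
  have h1 := Int.floor_le x
  have h2 := Int.lt_floor_add_one x
  have h3 := Int.floor_le (-t)
  have h4 := Int.lt_floor_add_one (-t)
  rw [h] at h1 h2
  rw [Finset.mem_Icc]
  constructor
  · rw [Int.le_floor]
    push_cast
    linarith
  · have : ⌊x - t⌋ < a + ⌊-t⌋ + 2 := by
      rw [Int.floor_lt]
      push_cast
      linarith
    omega

theorem cell_four (P : Finset (ℝ × ℝ)) (G : ℕ) (w : ℝ × ℝ) (i : ℤ × ℤ) :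
    ((P.filter fun p => cell G p = i ∧ p - w ∈ P).image fun p => cell G (p - w)).card ≤ 4 := by
  have h1 : ((P.filter fun p => cell G p = i ∧ p - w ∈ P).image fun p => cell G (p - w)) ⊆
      Finset.Icc (i.1 + ⌊-((G : ℝ) * w.1)⌋) (i.1 + ⌊-((G : ℝ) * w.1)⌋ + 1) ×ˢ
        Finset.Icc (i.2 + ⌊-((G : ℝ) * w.2)⌋) (i.2 + ⌊-((G : ℝ) * w.2)⌋ + 1) := by
    intro j hj
    obtain ⟨p, hp, rfl⟩ := mem_image.1 hj
    obtain ⟨-, hp2, -⟩ := mem_filter.1 hp
    rw [mem_product]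
    constructor
    · have := floor_sub_mem (t := (G : ℝ) * w.1) (congrArg Prod.fst hp2)
      change ⌊(G : ℝ) * (p.1 - w.1)⌋ ∈ _
      rw [mul_sub]
      exact this
    · have := floor_sub_mem (t := (G : ℝ) * w.2) (congrArg Prod.snd hp2)
      change ⌊(G : ℝ) * (p.2 - w.2)⌋ ∈ _
      rw [mul_sub]
      exact this
  refine (card_le_card h1).trans ?_
  rw [card_product, Int.card_Icc, Int.card_Icc]
  have e1 : (i.1 + ⌊-((G : ℝ) * w.1)⌋ + 1 + 1 - (i.1 + ⌊-((G : ℝ) * w.1)⌋)).toNat = 2 := by omega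
  have e2 : (i.2 + ⌊-((G : ℝ) * w.2)⌋ + 1 + 1 - (i.2 + ⌊-((G : ℝ) * w.2)⌋)).toNat = 2 := by omega
  rw [e1, e2]

theorem card_cells (P : Finset (ℝ × ℝ)) (hP : ∀ p ∈ P, (0 ≤ p.1 ∧ p.1 ≤ 1) ∧ (0 ≤ p.2 ∧ p.2 ≤ 1))
    (G : ℕ) : (P.image (cell G)).card ≤ (G + 1) ^ 2 := by
  have key : ∀ x : ℝ, 0 ≤ x → x ≤ 1 → ⌊(G : ℝ) * x⌋ ∈ Finset.Icc (0 : ℤ) G := by
    intro x h0 h1
    rw [Finset.mem_Icc]
    constructor
    · exact Int.floor_nonneg.2 (by positivity)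
    · have : ⌊(G : ℝ) * x⌋ < (G : ℤ) + 1 := by
        rw [Int.floor_lt]
        push_cast
        have : (G : ℝ) * x ≤ G * 1 := mul_le_mul_of_nonneg_left h1 (Nat.cast_nonneg G)
        linarith
      omega
  have h1 : P.image (cell G) ⊆ Finset.Icc (0 : ℤ) G ×ˢ Finset.Icc (0 : ℤ) G := by
    intro j hj
    obtain ⟨p, hp, rfl⟩ := mem_image.1 hj
    obtain ⟨⟨h1, h2⟩, ⟨h3, h4⟩⟩ := hP p hp
    exact mem_product.2 ⟨key _ h1 h2, key _ h3 h4⟩
  refine (card_le_card h1).trans ?_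
  rw [card_product, Int.card_Icc]
  have e1 : ((G : ℤ) + 1 - 0).toNat = G + 1 := by omega
  rw [e1, sq]

theorem cell_close {G : ℕ} (hG : 1 ≤ G) {p q : ℝ × ℝ} (h : cell G p = cell G q) :
    |(q - p).1| ≤ 1 / G ∧ |(q - p).2| ≤ 1 / G := by
  have hG' : (0 : ℝ) < G := by exact_mod_cast hG
  have key : ∀ x y : ℝ, ⌊(G : ℝ) * x⌋ = ⌊(G : ℝ) * y⌋ → |y - x| ≤ 1 / G := by
    intro x y hxy
    have h1 := Int.abs_sub_lt_one_of_floor_eq_floor hxy
    rw [← mul_sub, abs_mul, abs_of_pos hG'] at h1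
    rw [le_div_iff₀ hG', abs_sub_comm, mul_comm]
    exact h1.le
  exact ⟨key _ _ (congrArg Prod.fst h), key _ _ (congrArg Prod.snd h)⟩

/-- a popular short vector gives a small triangle -/
theorem popular (P : Finset (ℝ × ℝ)) (hP : ∀ p ∈ P, (0 ≤ p.1 ∧ p.1 ≤ 1) ∧ (0 ≤ p.2 ∧ p.2 ≤ 1))
    {G : ℕ} (hG : 1 ≤ G) {v : ℝ × ℝ} (hv : v ≠ 0) (h1 : |v.1| ≤ 1 / G) (h2 : |v.2| ≤ 1 / G)
    (hm : 2 ≤ rr P v) :
    ∃ p ∈ P, ∃ q ∈ P, ∃ r ∈ P, p ≠ q ∧ p ≠ r ∧ q ≠ r ∧ area p q r ≤ 4 / (G * rr P v) := by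
  have hG' : (0 : ℝ) < G := by exact_mod_cast hG
  obtain ⟨m, hmd⟩ : ∃ m : ℕ, rr P v = m + 1 := ⟨rr P v - 1, by omega⟩
  have hm1 : 1 ≤ m := by omega
  have hm' : (1 : ℝ) ≤ m := by exact_mod_cast hm1
  set Q := P.filter fun x => x + v ∈ P with hQ
  have hQc : Q.card = m + 1 := hmd
  set f : ℝ × ℝ → ℝ := fun p => v.1 * p.2 - v.2 * p.1 with hf
  have hQne : Q.Nonempty := card_pos.1 (by omega)
  obtain ⟨q0, hq0, hmin⟩ := exists_min_image Q f hQne
  have hfd : ∀ p ∈ Q, f p - f q0 ≤ 2 / G := by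
    intro p hp
    obtain ⟨⟨a1, a2⟩, ⟨a3, a4⟩⟩ := hP p (mem_filter.1 hp).1
    obtain ⟨⟨b1, b2⟩, ⟨b3, b4⟩⟩ := hP q0 (mem_filter.1 hq0).1
    have e1 : f p - f q0 = v.1 * (p.2 - q0.2) + v.2 * (q0.1 - p.1) := by
      simp only [hf]; ring
    have e2 : v.1 * (p.2 - q0.2) ≤ 1 / G := by
      refine (le_abs_self _).trans ?_
      rw [abs_mul]
      calc |v.1| * |p.2 - q0.2| ≤ |v.1| * 1 :=
            mul_le_mul_of_nonneg_left (abs_le.2 ⟨by linarith, by linarith⟩) (abs_nonneg _)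
        _ ≤ 1 / G := by rw [mul_one]; exact h1
    have e3 : v.2 * (q0.1 - p.1) ≤ 1 / G := by
      refine (le_abs_self _).trans ?_
      rw [abs_mul]
      calc |v.2| * |q0.1 - p.1| ≤ |v.2| * 1 :=
            mul_le_mul_of_nonneg_left (abs_le.2 ⟨by linarith, by linarith⟩) (abs_nonneg _)
        _ ≤ 1 / G := by rw [mul_one]; exact h2
    rw [e1]
    have : (2 : ℝ) / G = 1 / G + 1 / G := by ring
    linarith
  have hmaps : ∀ p ∈ Q, ⌊(f p - f q0) * (G * m / 4)⌋₊ ∈ Finset.range m := by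
    intro p hp
    rw [Finset.mem_range, Nat.floor_lt (mul_nonneg (sub_nonneg.2 (hmin p hp)) (by positivity))]
    have e1 := mul_le_mul_of_nonneg_right (hfd p hp) (show (0 : ℝ) ≤ G * m / 4 by positivity)
    have e2 : (2 : ℝ) / G * (G * m / 4) = m / 2 := by field_simp; norm_num
    rw [e2] at e1
    linarith
  obtain ⟨p, hp, q, hq, hpq, hb⟩ := exists_ne_map_eq_of_card_lt_of_maps_to
    (show (Finset.range m).card < Q.card by rw [hQc, card_range]; omega) hmaps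
  have hp' := mem_filter.1 hp
  have hq' := mem_filter.1 hq
  have hne1 : p ≠ p + v := fun h => hv (by simpa using h)
  by_cases hqv : q = p + v
  · refine ⟨p, hp'.1, p + v, hp'.2, p + v + v, by rw [← hqv]; exact hq'.2, hne1, ?_, ?_, ?_⟩
    · intro h
      apply hv
      have h3 : v + v = 0 := by
        have : p + (v + v) = p + 0 := by rw [add_zero, ← add_assoc]; exact h.symm
        exact add_left_cancel this
      have h4 : v.1 + v.1 = 0 := congrArg Prod.fst h3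
      have h5 : v.2 + v.2 = 0 := congrArg Prod.snd h3
      exact Prod.ext (by simp only [Prod.fst_zero]; linarith) (by simp only [Prod.snd_zero]; linarith)
    · exact fun h => hv (by simpa using h)
    · have : area p (p + v) (p + v + v) = 0 := by
        simp only [area, Prod.fst_add, Prod.snd_add]
        rw [show (p.1 + v.1 - p.1) * (p.2 + v.2 + v.2 - p.2) -
          (p.2 + v.2 - p.2) * (p.1 + v.1 + v.1 - p.1) = 0 by ring]
        simp
      rw [this]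
      positivity
  · refine ⟨p, hp'.1, p + v, hp'.2, q, hq'.1, hne1, hpq, fun h => hqv h.symm, ?_⟩
    have e1 : area p (p + v) q = |f q - f p| / 2 := by
      simp only [area, Prod.fst_add, Prod.snd_add, hf]
      congr 2
      ring
    have e2 : |(f q - f q0) * (G * m / 4) - (f p - f q0) * (G * m / 4)| < 1 := by
      have a1 : 0 ≤ (f p - f q0) * (G * m / 4) :=
        mul_nonneg (sub_nonneg.2 (hmin p hp)) (by positivity)
      have a2 : 0 ≤ (f q - f q0) * (G * m / 4) :=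
        mul_nonneg (sub_nonneg.2 (hmin q hq)) (by positivity)
      have b1 := Nat.floor_le a1
      have b2 := Nat.lt_floor_add_one ((f p - f q0) * (G * m / 4))
      have b3 := Nat.floor_le a2
      have b4 := Nat.lt_floor_add_one ((f q - f q0) * (G * m / 4))
      rw [hb] at b1 b2
      rw [abs_lt]
      constructor <;> linarith
    have e3 : |f q - f p| * (G * m / 4) < 1 := by
      have : (f q - f q0) * (G * m / 4) - (f p - f q0) * (G * m / 4) =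
          (f q - f p) * (G * m / 4) := by ring
      rw [this, abs_mul, abs_of_pos (show (0 : ℝ) < G * m / 4 by positivity)] at e2
      exact e2
    rw [e1, hmd, le_div_iff₀ (by positivity)]
    push_cast
    have e4 : |f q - f p| * (G * ((m : ℝ) + 1)) ≤ |f q - f p| * (G * (m + m)) :=
      mul_le_mul_of_nonneg_left (mul_le_mul_of_nonneg_left (by linarith) hG'.le) (abs_nonneg _)
    nlinarith

theorem area_le_one {p q r : ℝ × ℝ} (hp : (0 ≤ p.1 ∧ p.1 ≤ 1) ∧ (0 ≤ p.2 ∧ p.2 ≤ 1))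
    (hq : (0 ≤ q.1 ∧ q.1 ≤ 1) ∧ (0 ≤ q.2 ∧ q.2 ≤ 1))
    (hr : (0 ≤ r.1 ∧ r.1 ≤ 1) ∧ (0 ≤ r.2 ∧ r.2 ≤ 1)) : area p q r ≤ 1 := by
  have key : ∀ a b : ℝ, |a| ≤ 1 → |b| ≤ 1 → |a * b| ≤ 1 := by
    intro a b ha hb
    rw [abs_mul]
    exact mul_le_one₀ ha (abs_nonneg _) hb
  have h1 := key (q.1 - p.1) (r.2 - p.2) (abs_le.2 ⟨by linarith [hp.1.2, hq.1.1], by linarith [hp.1.1, hq.1.2]⟩)
    (abs_le.2 ⟨by linarith [hp.2.2, hr.2.1], by linarith [hp.2.1, hr.2.2]⟩)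
  have h2 := key (q.2 - p.2) (r.1 - p.1) (abs_le.2 ⟨by linarith [hp.2.2, hq.2.1], by linarith [hp.2.1, hq.2.2]⟩)
    (abs_le.2 ⟨by linarith [hp.1.2, hr.1.1], by linarith [hp.1.1, hr.1.2]⟩)
  unfold area
  have h3 := abs_sub ((q.1 - p.1) * (r.2 - p.2)) ((q.2 - p.2) * (r.1 - p.1))
  linarith

/-- **Energy and small triangles.** -/
theorem main (P : Finset (ℝ × ℝ)) (hP : ∀ p ∈ P, (0 ≤ p.1 ∧ p.1 ≤ 1) ∧ (0 ≤ p.2 ∧ p.2 ≤ 1))
    (h3 : 3 ≤ P.card) :
    ∃ p ∈ P, ∃ q ∈ P, ∃ r ∈ P, p ≠ q ∧ p ≠ r ∧ q ≠ r ∧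
      area p q r ≤ 500 * ((P.card : ℝ) ^ 2 / P.addEnergy P) ^ ((3 : ℝ) / 2) := by
  have hn : (0 : ℝ) < P.card := by
    have : 0 < P.card := by omega
    exact_mod_cast this
  have hPne : P.Nonempty := card_pos.1 (by omega)
  have hE : (0 : ℝ) < P.addEnergy P := by exact_mod_cast addEnergy_self_pos hPne
  obtain ⟨x, hx⟩ : ∃ x : ℝ, x = (P.card : ℝ) ^ 2 / P.addEnergy P := ⟨_, rfl⟩
  have hx0 : 0 < x := by rw [hx]; positivity
  have hxp : x ^ ((3 : ℝ) / 2) = x * Real.sqrt x := by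
    rw [Real.sqrt_eq_rpow, show (3 : ℝ) / 2 = 1 + 1 / 2 by norm_num, Real.rpow_add hx0,
      Real.rpow_one]
  rw [← hx, hxp]
  have hs32 : Real.sqrt 32 ≤ 5.66 := by
    rw [Real.sqrt_le_left (by norm_num)]
    norm_num
  by_cases hbig : 1 ≤ 1 / (32 * x)
  · obtain ⟨s, hs⟩ : ∃ s : ℝ, s = Real.sqrt (1 / (32 * x)) := ⟨_, rfl⟩
    have hs2 : s ^ 2 = 1 / (32 * x) := by rw [hs, Real.sq_sqrt (by positivity)]
    have hs1 : 1 ≤ s := by rw [hs]; exact Real.one_le_sqrt.2 hbig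
    have hs0 : 0 < s := by linarith
    have hG1 : 1 ≤ ⌊s⌋₊ := Nat.one_le_floor_iff s |>.2 hs1
    have hGs : (⌊s⌋₊ : ℝ) ≤ s := Nat.floor_le hs0.le
    have hGs' := Nat.lt_floor_add_one s
    have hG1' : (1 : ℝ) ≤ (⌊s⌋₊ : ℝ) := by exact_mod_cast hG1
    have hG2 : s / 2 ≤ (⌊s⌋₊ : ℝ) := by linarith
    -- number of cells
    have hM : ((P.image (cell ⌊s⌋₊)).card : ℝ) ≤ 1 / (8 * x) := by
      have h4 : ((P.image (cell ⌊s⌋₊)).card : ℝ) ≤ ((⌊s⌋₊ : ℝ) + 1) ^ 2 := by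
        exact_mod_cast card_cells P hP ⌊s⌋₊
      have h5 : ((⌊s⌋₊ : ℝ) + 1) ^ 2 ≤ (2 * s) ^ 2 :=
        pow_le_pow_left₀ (by positivity) (by linarith) 2
      have h6 : (2 * s) ^ 2 = 1 / (8 * x) := by
        rw [mul_pow, hs2]
        field_simp
        norm_num
      linarith
    have hEx : (P.addEnergy P : ℝ) * x = (P.card : ℝ) ^ 2 := by
      rw [hx]; field_simp
    -- a popular short difference
    obtain ⟨p, hp, q, hq, hc, hpq, hr⟩ : ∃ p ∈ P, ∃ q ∈ P, cell ⌊s⌋₊ p = cell ⌊s⌋₊ q ∧ p ≠ q ∧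
        1 / (10 * x) ≤ (rr P (q - p) : ℝ) := by
      by_contra hno
      have h4 := energy_le P (cell ⌊s⌋₊) (fun w i => cell_four P ⌊s⌋₊ w i)
        (R := 1 / (10 * x)) (by positivity) (fun p hp q hq hc hpq => by
          by_contra hlt
          exact hno ⟨p, hp, q, hq, hc, hpq, (not_le.1 hlt).le⟩)
      have h5 : 4 * (P.card : ℝ) ^ 2 * ((P.image (cell ⌊s⌋₊)).card + 1 / (10 * x)) ≤
          4 * (P.card : ℝ) ^ 2 * (1 / (8 * x) + 1 / (10 * x)) :=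
        mul_le_mul_of_nonneg_left (by linarith) (by positivity)
      have h6 : 4 * (P.card : ℝ) ^ 2 * (1 / (8 * x) + 1 / (10 * x)) =
          (9 / 10) * P.addEnergy P := by
        rw [← hEx]
        field_simp
        norm_num
      linarith
    obtain ⟨hv1, hv2⟩ := cell_close hG1 hc
    have hr2 : 2 ≤ rr P (q - p) := by
      have h4 : (3.2 : ℝ) ≤ 1 / (10 * x) := by
        rw [le_div_iff₀ (by positivity)]
        rw [le_div_iff₀ (by positivity)] at hbig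
        linarith
      have h5 : (2 : ℝ) ≤ (rr P (q - p) : ℝ) := by linarith
      exact_mod_cast h5
    obtain ⟨a, ha, b, hb, c, hc', h7, h8, h9, h10⟩ :=
      popular P hP hG1 (sub_ne_zero.2 hpq.symm) hv1 hv2 hr2
    refine ⟨a, ha, b, hb, c, hc', h7, h8, h9, h10.trans ?_⟩
    have h11 : s / 2 * (1 / (10 * x)) ≤ (⌊s⌋₊ : ℝ) * rr P (q - p) :=
      mul_le_mul hG2 hr (by positivity) (by positivity)
    have h12 : 4 / ((⌊s⌋₊ : ℝ) * rr P (q - p)) ≤ 4 / (s / 2 * (1 / (10 * x))) :=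
      div_le_div_of_nonneg_left (by norm_num) (by positivity) h11
    refine h12.trans ?_
    have h13 : Real.sqrt x * (s * Real.sqrt 32) = 1 := by
      rw [hs, ← Real.sqrt_mul (by positivity), ← Real.sqrt_mul (by positivity)]
      have : x * (1 / (32 * x) * 32) = 1 := by field_simp
      rw [this, Real.sqrt_one]
    have h14 : 4 / (s / 2 * (1 / (10 * x))) = 80 * x * (1 / s) := by
      field_simp
      norm_num
    have h15 : 1 / s = Real.sqrt x * Real.sqrt 32 := by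
      rw [div_eq_iff hs0.ne']
      linarith
    rw [h14, h15]
    have h16 : 0 ≤ x * Real.sqrt x := by positivity
    nlinarith
  · have hxl : 1 / 32 < x := by
      rw [not_le, div_lt_one (by positivity)] at hbig
      linarith
    obtain ⟨a, ha, b, hb, c, hc, hab, hac, hbc⟩ := two_lt_card.1 (show 2 < P.card by omega)
    refine ⟨a, ha, b, hb, c, hc, hab, hac, hbc, ?_⟩
    refine (area_le_one (hP a ha) (hP b hb) (hP c hc)).trans ?_
    have h4 : Real.sqrt (1 / 32) ≤ Real.sqrt x := Real.sqrt_le_sqrt hxl.le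
    have h5 : (0.1 : ℝ) ≤ Real.sqrt (1 / 32) := by
      rw [Real.le_sqrt' (by norm_num)]
      norm_num
    have h6 : (0.1 : ℝ) ≤ Real.sqrt x := h5.trans h4
    have h7 : 1 / 32 * 0.1 ≤ x * Real.sqrt x := mul_le_mul hxl.le h6 (by norm_num) hx0.le
    linarith

end P036E
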